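import Mathlib

/-!
P160, reverse Minkowski: nodes and weights for the derivative at zero of a trigonometric polynomial.
-/

namespace Vale.Agent.P160R.RM

open Finset

/-- The node of index `j` among `2n+1` equally spaced angles. -/
noncomputable def node (n : ℕ) (j : Fin (2 * n + 1)) : ℝ := 2 * Real.pi * j.val / (2 * n + 1 : ℕ)

theorem exp_node (n : ℕ) (m : ℤ) (j : Fin (2 * n + 1)) :
    Complex.exp (((m : ℝ) * node n j : ℝ) * Complex.I) =
      Complex.exp (2 * Real.pi * Complex.I * m / ((2 * n + 1 : ℕ) : ℂ)) ^ j.val := by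
  rw [← Complex.exp_nat_mul]
  congr 1
  simp only [node]
  push_cast
  ring

theorem sum_exp_node (n : ℕ) (m : ℤ) (hm : m.natAbs ≤ 2 * n) :
    ∑ j : Fin (2 * n + 1), Complex.exp (((m : ℝ) * node n j : ℝ) * Complex.I) =
      if m = 0 then ((2 * n + 1 : ℕ) : ℂ) else 0 := by
  split_ifs with h
  · subst h; simp
  simp only [exp_node]
  set w := Complex.exp (2 * Real.pi * Complex.I * m / ((2 * n + 1 : ℕ) : ℂ))
  rw [Fin.sum_univ_eq_sum_range (fun j => w ^ j)]
  have hM : ((2 * n + 1 : ℕ) : ℂ) ≠ 0 := Nat.cast_ne_zero.2 (Nat.succ_ne_zero _)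
  have hw : w ^ (2 * n + 1) = 1 := by
    rw [← Complex.exp_nat_mul, mul_div_cancel₀ _ hM, Complex.exp_eq_one_iff]
    exact ⟨m, by ring⟩
  have hne : w ≠ 1 := fun h1 => by
    obtain ⟨q, hq⟩ := Complex.exp_eq_one_iff.1 h1
    rw [div_eq_iff hM] at hq
    have h2 : (m : ℂ) = (q * (2 * n + 1 : ℕ) : ℤ) :=
      mul_left_cancel₀ Complex.two_pi_I_ne_zero (by push_cast at hq ⊢; linear_combination hq)
    have h3 : m = q * (2 * n + 1 : ℕ) := by exact_mod_cast h2
    rcases eq_or_ne q 0 with rfl | hq0
    · exact h (by simpa using h3)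
    · have := congrArg Int.natAbs h3
      rw [Int.natAbs_mul, Int.natAbs_natCast] at this
      have : 1 * (2 * n + 1) ≤ q.natAbs * (2 * n + 1) :=
        Nat.mul_le_mul_right _ (Int.natAbs_pos.2 hq0)
      omega
  rw [geom_sum_eq hne, hw, sub_self, zero_div]

theorem sum_cos_node (n : ℕ) (m : ℤ) (hm : m.natAbs ≤ 2 * n) :
    ∑ j : Fin (2 * n + 1), Real.cos (m * node n j) = if m = 0 then ((2 * n + 1 : ℕ) : ℝ) else 0 := by
  have := congrArg Complex.re (sum_exp_node n m hm)
  simp only [Complex.re_sum, Complex.exp_ofReal_mul_I_re] at this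
  rw [this]
  split_ifs <;> simp

theorem sum_sin_node (n : ℕ) (m : ℤ) (hm : m.natAbs ≤ 2 * n) :
    ∑ j : Fin (2 * n + 1), Real.sin (m * node n j) = 0 := by
  have := congrArg Complex.im (sum_exp_node n m hm)
  simp only [Complex.im_sum, Complex.exp_ofReal_mul_I_im] at this
  rw [this]
  split_ifs <;> simp

/-- The weight of a node. -/
noncomputable def dker (n : ℕ) (θ : ℝ) : ℝ := ∑ l ∈ Icc 1 n, (l : ℝ) * Real.sin (l * θ)

theorem dker_moments (n k : ℕ) : ∀ s : ℤ, s.natAbs + k ≤ n →
    ∑ j : Fin (2 * n + 1), dker n (node n j) * Real.sin (node n j) ^ k * Real.cos (s * node n j) =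
      (if k = 1 then ((2 * n + 1 : ℕ) : ℝ) / 2 else 0) ∧
    ∑ j : Fin (2 * n + 1), dker n (node n j) * Real.sin (node n j) ^ k * Real.sin (s * node n j) =
      (if k = 0 then ((2 * n + 1 : ℕ) : ℝ) / 2 * s else 0) := by
  induction k with
  | zero =>
    intro s hs
    simp only [pow_zero, mul_one, dker, sum_mul, zero_ne_one, if_false, if_true]
    constructor <;> rw [sum_comm]
    · refine sum_eq_zero fun l hl => ?_
      rw [mem_Icc] at hl
      have e : ∀ j, (l : ℝ) * Real.sin (l * node n j) * Real.cos (s * node n j) =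
          l / 2 * (Real.sin (((l : ℤ) + s : ℤ) * node n j) + Real.sin (((l : ℤ) - s : ℤ) * node n j)) := by
        intro j
        push_cast
        rw [add_mul, sub_mul, Real.sin_add, Real.sin_sub]
        ring
      simp only [e, ← mul_sum, sum_add_distrib]
      rw [sum_sin_node n _ (by omega), sum_sin_node n _ (by omega), add_zero, mul_zero]
    · have e : ∀ l ∈ Icc 1 n, ∑ j : Fin (2 * n + 1), (l : ℝ) * Real.sin (l * node n j) * Real.sin (s * node n j) =
          ((2 * n + 1 : ℕ) : ℝ) / 2 *
            ((if (l : ℤ) = s then (l : ℝ) else 0) - if (l : ℤ) = -s then (l : ℝ) else 0) := by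
        intro l hl
        rw [mem_Icc] at hl
        have e' : ∀ j, (l : ℝ) * Real.sin (l * node n j) * Real.sin (s * node n j) =
            l / 2 * (Real.cos (((l : ℤ) - s : ℤ) * node n j) - Real.cos (((l : ℤ) + s : ℤ) * node n j)) := by
          intro j
          push_cast
          rw [add_mul, sub_mul, Real.cos_add, Real.cos_sub]
          ring
        simp only [e', ← mul_sum, sum_sub_distrib]
        rw [sum_cos_node n _ (by omega), sum_cos_node n _ (by omega)]
        simp only [sub_eq_zero, add_eq_zero_iff_eq_neg]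
        split_ifs <;> ring
      rw [sum_congr rfl e, ← mul_sum, sum_sub_distrib]
      congr 1
      have pick : ∀ t : ℤ, t.natAbs ≤ n → (∑ l ∈ Icc 1 n, if (l : ℤ) = t then (l : ℝ) else 0) =
          if 0 < t then (t : ℝ) else 0 := by
        intro t ht
        split_ifs with h0
        · rw [sum_eq_single t.toNat (fun b _ hb => if_neg fun h => hb (by omega))
            (fun h => absurd (mem_Icc.2 ⟨by omega, by omega⟩) h), if_pos (by omega)]
          exact_mod_cast Int.toNat_of_nonneg h0.le
        · exact sum_eq_zero fun b hb => if_neg fun h => by rw [mem_Icc] at hb; omega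
      rw [pick s (by omega), pick (-s) (by omega)]
      rcases lt_trichotomy s 0 with h | h | h
      · rw [if_neg (by omega), if_pos (by omega)]; push_cast; ring
      · subst h; simp
      · rw [if_pos (by omega), if_neg (by omega)]; ring
  | succ k ih =>
    intro s hs
    have h1 := ih (s + 1) (by omega)
    have h2 := ih (s - 1) (by omega)
    constructor
    · have e : ∀ j, dker n (node n j) * Real.sin (node n j) ^ (k + 1) * Real.cos (s * node n j) =
          1 / 2 * (dker n (node n j) * Real.sin (node n j) ^ k * Real.sin ((s + 1 : ℤ) * node n j) -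
            dker n (node n j) * Real.sin (node n j) ^ k * Real.sin ((s - 1 : ℤ) * node n j)) := by
        intro j
        push_cast
        rw [add_mul, sub_mul, one_mul, Real.sin_add, Real.sin_sub, pow_succ]
        ring
      simp only [e, ← mul_sum, sum_sub_distrib, h1.2, h2.2]
      rcases k with _ | k <;> simp; ring
    · have e : ∀ j, dker n (node n j) * Real.sin (node n j) ^ (k + 1) * Real.sin (s * node n j) =
          1 / 2 * (dker n (node n j) * Real.sin (node n j) ^ k * Real.cos ((s - 1 : ℤ) * node n j) -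
            dker n (node n j) * Real.sin (node n j) ^ k * Real.cos ((s + 1 : ℤ) * node n j)) := by
        intro j
        push_cast
        rw [add_mul, sub_mul, one_mul, Real.cos_add, Real.cos_sub, pow_succ]
        ring
      simp only [e, ← mul_sum, sum_sub_distrib, h1.1, h2.1]
      simp

/-- Nodes in `[-1/2, 1/2]` and small weights reproducing the linear coefficient up to degree `n`. -/
theorem exists_interp (n : ℕ) (hn : 1 ≤ n) : ∃ c z : Fin (2 * n + 1) → ℝ,
    (∀ j, |z j| ≤ 1 / 2) ∧ ∑ j, |c j| ≤ 4 * (n : ℝ) ^ 2 ∧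
      ∀ k ≤ n, ∑ j, c j * z j ^ k = if k = 1 then 1 else 0 := by
  refine ⟨fun j => 4 * dker n (node n j) / (2 * n + 1 : ℕ), fun j => Real.sin (node n j) / 2,
    fun j => ?_, ?_, fun k hk => ?_⟩
  · rw [abs_div, abs_two, div_le_div_iff_of_pos_right two_pos]
    exact Real.abs_sin_le_one _
  · refine (sum_le_card_nsmul univ _ (4 * (n : ℝ) ^ 2 / (2 * n + 1 : ℕ)) fun j _ => ?_).trans
      (le_of_eq ?_)
    · rw [abs_div, abs_mul, abs_of_pos (by norm_num : (0 : ℝ) < 4), Nat.abs_cast]
      gcongr
      refine (abs_sum_le_sum_abs _ _).trans ((sum_le_card_nsmul _ _ (n : ℝ) fun l hl => ?_).trans ?_)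
      · rw [abs_mul, Nat.abs_cast]
        exact le_trans (mul_le_of_le_one_right (Nat.cast_nonneg _) (Real.abs_sin_le_one _))
          (Nat.cast_le.2 (mem_Icc.1 hl).2)
      · rw [Nat.card_Icc, nsmul_eq_mul]; simp [sq]
    · rw [card_univ, Fintype.card_fin, nsmul_eq_mul, mul_div_cancel₀]
      exact Nat.cast_ne_zero.2 (Nat.succ_ne_zero _)
  · have h := (dker_moments n k 0 (by simpa using hk)).1
    simp only [Int.cast_zero, zero_mul, Real.cos_zero, mul_one] at h
    have e : ∀ j, 4 * dker n (node n j) / (2 * n + 1 : ℕ) * (Real.sin (node n j) / 2) ^ k =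
        4 / (2 * n + 1 : ℕ) * (1 / 2) ^ k * (dker n (node n j) * Real.sin (node n j) ^ k) := by
      intro j
      rw [div_pow, div_pow, one_pow]; ring
    rw [sum_congr rfl fun j _ => e j, ← mul_sum, h]
    split_ifs with h1
    · subst h1; field_simp; ring
    · simp

end Vale.Agent.P160R.RM
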